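import Vale.Agent.N126.Tr

open Pointwise

namespace Vale.Agent.Results.P126.A0LogDuality

open Vale.Agent.P126

/-- Both inequalities of the duality conjecture for metric entropy hold with constants of order
`log (1 + n)`, and at scale of order `J` with the loss of a `J`-th root of the entropy or of the
dimension. -/
theorem result :
    (∃ C : ℝ, ∀ (n J : ℕ) (K L : Set (EuclideanSpace ℝ (Fin n))),
      IsSymmBody K → IsSymmBody L → 2 ≤ J →
        (Real.log (coveringNumber K L)) ^ (1 - 1 / (J : ℝ)) ≤
          C * J * Real.log (coveringNumber (polarBody L) ((384 * J : ℝ)⁻¹ • polarBody K)) ∧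
        (Real.log (coveringNumber (polarBody L) ((384 * J : ℝ) • polarBody K))) ^
          (1 - 1 / (J : ℝ)) ≤ C * J * Real.log (coveringNumber K L) ∧
        Real.log (coveringNumber K L) ≤ C * J * (n : ℝ) ^ (1 / (J : ℝ)) *
          Real.log (coveringNumber (polarBody L) ((384 * J : ℝ)⁻¹ • polarBody K)) ∧
        Real.log (coveringNumber (polarBody L) ((384 * J : ℝ) • polarBody K)) ≤
          C * J * (n : ℝ) ^ (1 / (J : ℝ)) * Real.log (coveringNumber K L)) ∧
    (∃ C : ℝ, 2 ≤ C ∧ ∀ n : ℕ, 1 ≤ n → ∀ a b : ℝ,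
      a = C * Real.log (1 + n) → b = C * Real.log (1 + n) →
      ∀ K L : Set (EuclideanSpace ℝ (Fin n)), IsSymmBody K → IsSymmBody L →
        1 / b * Real.log (coveringNumber (polarBody L) (a • polarBody K)) ≤
            Real.log (coveringNumber K L) ∧
        Real.log (coveringNumber K L) ≤
          b * Real.log (coveringNumber (polarBody L) (a⁻¹ • polarBody K))) := by
  refine ⟨⟨47185920, fun n J K L hK hL hJ => ?_⟩,
    600000000, by norm_num, fun n hn a b ha hb K L hK hL => ?_⟩
  · obtain ⟨h1, h2, h3, h4⟩ := N.upper_all hK hL hJ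
    refine ⟨h1.trans ?_, h2.trans ?_, h3, h4⟩
    · exact mul_le_mul_of_nonneg_right
        (mul_le_mul_of_nonneg_right (by norm_num) (Nat.cast_nonneg J)) (Real.log_natCast_nonneg _)
    · exact mul_le_mul_of_nonneg_right
        (mul_le_mul_of_nonneg_right (by norm_num) (Nat.cast_nonneg J)) (Real.log_natCast_nonneg _)
  · have h0 : 0 ≤ Real.log (1 + n) :=
      Real.log_nonneg (le_add_of_nonneg_right (Nat.cast_nonneg n))
    exact N.log_duality hn hK hL (by rw [ha]; linarith) hb.ge

end Vale.Agent.Results.P126.A0LogDuality
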